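import Mathlib

/-! # The numeric lemma on the Abel summation constant (module `GNum`)

`GG r = 2 x / (1 + r²) + π - arctan (x - r) - arctan (x + r)` with `x = √(3 r² - 1)`.  It is
antitone with derivative `- x³ / (r (1 + r²)²)`. -/

namespace Vale.Agent.P321.R3.H614

open Real Set

/-- The integral of the decreasing minorant of the sum of the two Lorentz kernels at `± r`. -/
noncomputable def GG (r : ℝ) : ℝ :=
  2 * √(3 * r ^ 2 - 1) / (1 + r ^ 2) + π - arctan (√(3 * r ^ 2 - 1) - r) -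
    arctan (√(3 * r ^ 2 - 1) + r)

theorem GG_continuous : Continuous GG := by
  unfold GG
  have h1 : Continuous fun r : ℝ => √(3 * r ^ 2 - 1) := by fun_prop
  refine Continuous.sub (Continuous.sub (Continuous.add (Continuous.div (by fun_prop) (by fun_prop)
    ?_) continuous_const) ?_) ?_
  · intro r
    positivity
  · exact Real.continuous_arctan.comp (h1.sub continuous_id)
  · exact Real.continuous_arctan.comp (h1.add continuous_id)

theorem hasDerivAt_GG {r : ℝ} (hr : 0 < r) (h : 0 < 3 * r ^ 2 - 1) :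
    HasDerivAt GG (-(√(3 * r ^ 2 - 1) ^ 3 / (r * (1 + r ^ 2) ^ 2))) r := by
  set x : ℝ := √(3 * r ^ 2 - 1) with hx
  have hx0 : 0 < x := Real.sqrt_pos.2 h
  have hx2 : x ^ 2 = 3 * r ^ 2 - 1 := Real.sq_sqrt h.le
  have h1 : HasDerivAt (fun r : ℝ => √(3 * r ^ 2 - 1)) (3 * r / x) r := by
    have h2 : HasDerivAt (fun r : ℝ => 3 * r ^ 2 - 1) (6 * r) r := by
      have h3 := ((hasDerivAt_pow 2 r).const_mul 3).sub_const 1
      refine h3.congr_deriv ?_
      push_cast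
      ring
    have h4 := h2.sqrt h.ne'
    refine h4.congr_deriv ?_
    rw [← hx]
    field_simp
    ring
  have h2 : HasDerivAt (fun r : ℝ => 1 + r ^ 2) (2 * r) r := by
    have h3 := (hasDerivAt_pow 2 r).const_add 1
    refine h3.congr_deriv ?_
    push_cast
    ring
  have h3 : HasDerivAt (fun r : ℝ => 2 * √(3 * r ^ 2 - 1) / (1 + r ^ 2))
      ((2 * (3 * r / x) * (1 + r ^ 2) - 2 * x * (2 * r)) / (1 + r ^ 2) ^ 2) r :=
    (h1.const_mul 2).div h2 (by positivity)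
  have h4 : HasDerivAt (fun r : ℝ => arctan (√(3 * r ^ 2 - 1) - r))
      (1 / (1 + (x - r) ^ 2) * (3 * r / x - 1)) r := (h1.sub (hasDerivAt_id r)).arctan
  have h5 : HasDerivAt (fun r : ℝ => arctan (√(3 * r ^ 2 - 1) + r))
      (1 / (1 + (x + r) ^ 2) * (3 * r / x + 1)) r := (h1.add (hasDerivAt_id r)).arctan
  have h6 := ((h3.add_const π).sub h4).sub h5
  refine h6.congr_deriv ?_
  have hprod : (1 + (x - r) ^ 2) * (1 + (x + r) ^ 2) = 4 * r ^ 2 * (1 + r ^ 2) := by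
    have : (1 + (x - r) ^ 2) * (1 + (x + r) ^ 2) = (1 + x ^ 2 + r ^ 2) ^ 2 - 4 * x ^ 2 * r ^ 2 := by
      ring
    rw [this, hx2]; ring
  have hA : 1 / (1 + (x - r) ^ 2) = (1 + (x + r) ^ 2) / (4 * r ^ 2 * (1 + r ^ 2)) := by
    rw [← hprod]; field_simp
  have hB : 1 / (1 + (x + r) ^ 2) = (1 + (x - r) ^ 2) / (4 * r ^ 2 * (1 + r ^ 2)) := by
    rw [← hprod]; field_simp
  rw [hA, hB]
  have e1 : (1 + (x + r) ^ 2) / (4 * r ^ 2 * (1 + r ^ 2)) * (3 * r / x - 1) +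
      (1 + (x - r) ^ 2) / (4 * r ^ 2 * (1 + r ^ 2)) * (3 * r / x + 1) =
      (3 * r / x) * ((2 + 2 * x ^ 2 + 2 * r ^ 2) / (4 * r ^ 2 * (1 + r ^ 2))) -
        4 * x * r / (4 * r ^ 2 * (1 + r ^ 2)) := by
    ring
  have e2 : (2 + 2 * x ^ 2 + 2 * r ^ 2) = 8 * r ^ 2 := by rw [hx2]; ring
  rw [e2] at e1
  have e3 : x ^ 3 = x * (3 * r ^ 2 - 1) := by rw [← hx2]; ring
  rw [sub_sub, e1, e3]
  field_simp
  ring

theorem deriv_GG {r : ℝ} (hr : 0 < r) (h : 0 < 3 * r ^ 2 - 1) :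
    deriv GG r = -(√(3 * r ^ 2 - 1) ^ 3 / (r * (1 + r ^ 2) ^ 2)) := (hasDerivAt_GG hr h).deriv

theorem three_sq_pos {r : ℝ} (h1 : 1 / √3 < r) : 0 < r ∧ 0 < 3 * r ^ 2 - 1 := by
  have h0 : (0 : ℝ) < 1 / √3 := by positivity
  have hr : 0 < r := h0.trans h1
  refine ⟨hr, ?_⟩
  have h2 : (1 / √3) ^ 2 < r ^ 2 := pow_lt_pow_left₀ h1 h0.le (by norm_num)
  rw [div_pow, Real.sq_sqrt (by norm_num)] at h2
  linarith

theorem h_ge {r : ℝ} (h1 : 1 ≤ r) (h2 : r ≤ 2.05) :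
    0.7071 ≤ √(3 * r ^ 2 - 1) ^ 3 / (r * (1 + r ^ 2) ^ 2) := by
  have hy1 : 1 ≤ r ^ 2 := one_le_pow₀ h1
  have hy2 : r ^ 2 ≤ 4.2025 := by
    have : r ^ 2 ≤ 2.05 ^ 2 := pow_le_pow_left₀ (by linarith) h2 2
    norm_num at this ⊢
    linarith
  have hr : 0 < r := by linarith
  rw [le_div_iff₀ (by positivity)]
  have h3 : 0 < 3 * r ^ 2 - 1 := by linarith
  have hx6 : (√(3 * r ^ 2 - 1) ^ 3) ^ 2 = (3 * r ^ 2 - 1) ^ 3 := by
    rw [← pow_mul, mul_comm 3 2, pow_mul, Real.sq_sqrt h3.le]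
  refine le_of_sq_le_sq ?_ (by positivity)
  rw [hx6]
  have e1 : (0.7071 * (r * (1 + r ^ 2) ^ 2)) ^ 2 = 0.7071 ^ 2 * (r ^ 2 * (1 + r ^ 2) ^ 4) := by
    ring
  rw [e1]
  obtain ⟨y, hy⟩ : ∃ y, y = r ^ 2 := ⟨_, rfl⟩
  rw [← hy] at hy1 hy2 ⊢
  have hq : 0 ≤ 43 * y - 5 * y ^ 2 - y ^ 3 - 15 := by
    nlinarith [mul_nonneg (sub_nonneg.2 hy1) (sub_nonneg.2 hy2),
      mul_nonneg (mul_nonneg (sub_nonneg.2 hy1) (sub_nonneg.2 hy2)) (by linarith : (0 : ℝ) ≤ y)]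
  have h7 : y * (1 + y) ^ 4 ≤ 2 * (3 * y - 1) ^ 3 := by
    have e2 : 2 * (3 * y - 1) ^ 3 - y * (1 + y) ^ 4 =
        (y - 1) * (y * (43 * y - 5 * y ^ 2 - y ^ 3 - 15) + 2) := by ring
    have e3 : 0 ≤ (y - 1) * (y * (43 * y - 5 * y ^ 2 - y ^ 3 - 15) + 2) := by
      apply mul_nonneg (by linarith)
      have := mul_nonneg (by linarith : (0 : ℝ) ≤ y) hq
      linarith
    linarith
  have h8 : 0 ≤ y * (1 + y) ^ 4 := by positivity
  calc (0.7071 : ℝ) ^ 2 * (y * (1 + y) ^ 4) ≤ 0.5 * (y * (1 + y) ^ 4) :=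
        mul_le_mul_of_nonneg_right (by norm_num) h8
    _ ≤ (3 * y - 1) ^ 3 := by linarith

theorem h_le {r : ℝ} (h1 : 2.05 ≤ r) :
    √(3 * r ^ 2 - 1) ^ 3 / (r * (1 + r ^ 2) ^ 2) ≤ 0.7131 := by
  have hy1 : 4.2025 ≤ r ^ 2 := by
    have : 2.05 ^ 2 ≤ r ^ 2 := pow_le_pow_left₀ (by norm_num) h1 2
    norm_num at this ⊢
    linarith
  have hr : 0 < r := by linarith
  rw [div_le_iff₀ (by positivity)]
  have h3 : 0 < 3 * r ^ 2 - 1 := by linarith
  have hx6 : (√(3 * r ^ 2 - 1) ^ 3) ^ 2 = (3 * r ^ 2 - 1) ^ 3 := by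
    rw [← pow_mul, mul_comm 3 2, pow_mul, Real.sq_sqrt h3.le]
  refine le_of_sq_le_sq ?_ (by positivity)
  rw [hx6]
  have e1 : (0.7131 * (r * (1 + r ^ 2) ^ 2)) ^ 2 = 0.7131 ^ 2 * (r ^ 2 * (1 + r ^ 2) ^ 4) := by
    ring
  rw [e1]
  obtain ⟨t, ht0, ht⟩ : ∃ t : ℝ, 0 ≤ t ∧ r ^ 2 = 4.2025 + t := ⟨r ^ 2 - 4.2025, by linarith, by ring⟩
  rw [ht]
  have h5 : (3 * (4.2025 + t) - 1) ^ 3 + 0 ≤ 0.5085 * ((4.2025 + t) * (1 + (4.2025 + t)) ^ 4) := by
    rw [← sub_nonneg]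
    ring_nf
    positivity
  have h6 : (0 : ℝ) ≤ (4.2025 + t) * (1 + (4.2025 + t)) ^ 4 := by positivity
  have h7 : (0.5085 : ℝ) * ((4.2025 + t) * (1 + (4.2025 + t)) ^ 4) ≤
      0.7131 ^ 2 * ((4.2025 + t) * (1 + (4.2025 + t)) ^ 4) :=
    mul_le_mul_of_nonneg_right (by norm_num) h6
  linarith

theorem arctan_ge {z : ℝ} (hz : 1 ≤ z) : π / 4 + (z - 1) / (1 + z ^ 2) ≤ arctan z := by
  have h := Convex.mul_sub_le_image_sub_of_le_deriv (convex_Icc (1 : ℝ) z)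
    (f := arctan) Real.continuous_arctan.continuousOn
    (fun y _ => (Real.hasDerivAt_arctan y).differentiableAt.differentiableWithinAt)
    (C := 1 / (1 + z ^ 2)) (fun y hy => by
      rw [interior_Icc] at hy
      rw [(Real.hasDerivAt_arctan y).deriv]
      apply one_div_le_one_div_of_le (by positivity)
      have : y ^ 2 ≤ z ^ 2 := pow_le_pow_left₀ (by linarith [hy.1]) hy.2.le 2
      linarith) 1 (left_mem_Icc.2 hz) z (right_mem_Icc.2 hz) hz
  rw [Real.arctan_one] at h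
  have e : 1 / (1 + z ^ 2) * (z - 1) = (z - 1) / (1 + z ^ 2) := by ring
  linarith

theorem GG_mid : 2.1249 ≤ GG 2.05 := by
  unfold GG
  have e0 : (3 * (2.05 : ℝ) ^ 2 - 1) = 11.6075 := by norm_num
  rw [e0]
  set x : ℝ := √11.6075 with hx
  have hx1 : 3.4069 ≤ x := Real.le_sqrt_of_sq_le (by norm_num)
  have hx2 : x ^ 2 = 11.6075 := Real.sq_sqrt (by norm_num)
  have hx0 : 0 < x := by linarith
  have h1 : 1 < (x - 2.05) * (x + 2.05) := by
    have : (x - 2.05) * (x + 2.05) = x ^ 2 - 2.05 ^ 2 := by ring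
    rw [this, hx2]; norm_num
  have h2 := Real.arctan_add_eq_add_pi h1 (by linarith)
  have e1 : ((x - 2.05) + (x + 2.05)) / (1 - (x - 2.05) * (x + 2.05)) = -(2 * x / 6.405) := by
    have e2 : 1 - (x - 2.05) * (x + 2.05) = -6.405 := by
      have : (x - 2.05) * (x + 2.05) = x ^ 2 - 2.05 ^ 2 := by ring
      rw [this, hx2]; norm_num
    rw [e2, div_neg]
    congr 1
    ring
  rw [e1, Real.arctan_neg] at h2
  have h3 : arctan 1.0638 ≤ arctan (2 * x / 6.405) := by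
    apply Real.arctan_strictMono.monotone
    rw [le_div_iff₀ (by norm_num)]
    linarith
  have h4 := arctan_ge (z := 1.0638) (by norm_num)
  have h5 : (0.0299 : ℝ) ≤ (1.0638 - 1) / (1 + 1.0638 ^ 2) := by norm_num
  have h6 := Real.pi_gt_d4
  have h7 : 1.3097 ≤ 2 * x / (1 + 2.05 ^ 2) := by
    rw [le_div_iff₀ (by norm_num)]
    linarith
  linarith

theorem GG_left {r : ℝ} (h1 : 1 ≤ r) (h2 : r ≤ 2.05) : 2.1249 + 0.7071 * (2.05 - r) ≤ GG r := by
  have h := Convex.image_sub_le_mul_sub_of_deriv_le (convex_Icc (1 : ℝ) 2.05)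
    (f := GG) GG_continuous.continuousOn
    (fun y hy => by
      rw [interior_Icc] at hy
      have hy1 : 0 < y := by linarith [hy.1]
      have hy2 : 1 ≤ y ^ 2 := one_le_pow₀ hy.1.le
      exact (hasDerivAt_GG hy1 (by linarith)).differentiableAt.differentiableWithinAt)
    (C := -0.7071) (fun y hy => by
      rw [interior_Icc] at hy
      have hy1 : 0 < y := by linarith [hy.1]
      have hy2 : 1 ≤ y ^ 2 := one_le_pow₀ hy.1.le
      rw [deriv_GG hy1 (by linarith)]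
      have := h_ge hy.1.le hy.2.le
      linarith) r ⟨h1, h2⟩ 2.05 (right_mem_Icc.2 (by norm_num)) h2
  have h3 := GG_mid
  linarith

theorem GG_right {r : ℝ} (h1 : 2.05 ≤ r) : 2.1249 - 0.7131 * (r - 2.05) ≤ GG r := by
  have h := Convex.mul_sub_le_image_sub_of_le_deriv (convex_Icc (2.05 : ℝ) r)
    (f := GG) GG_continuous.continuousOn
    (fun y hy => by
      rw [interior_Icc] at hy
      have hy1 : 1 ≤ y := by linarith [hy.1]
      have hy2 : 1 ≤ y ^ 2 := one_le_pow₀ hy1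
      exact (hasDerivAt_GG (by linarith) (by linarith)).differentiableAt.differentiableWithinAt)
    (C := -0.7131) (fun y hy => by
      rw [interior_Icc] at hy
      have hy1 : 1 ≤ y := by linarith [hy.1]
      have hy2 : 1 ≤ y ^ 2 := one_le_pow₀ hy1
      rw [deriv_GG (by linarith) (by linarith)]
      have := h_le hy.1.le
      linarith) 2.05 (left_mem_Icc.2 h1) r (right_mem_Icc.2 h1) h1
  have h3 := GG_mid
  linarith

theorem GG_low {r : ℝ} (h1 : 1 / √3 ≤ r) (h2 : r ≤ 1) : 2.8673 ≤ GG r := by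
  have h := Convex.image_sub_le_mul_sub_of_deriv_le (convex_Icc (1 / √3 : ℝ) 1)
    (f := GG) GG_continuous.continuousOn
    (fun y hy => by
      rw [interior_Icc] at hy
      obtain ⟨hy1, hy2⟩ := three_sq_pos hy.1
      exact (hasDerivAt_GG hy1 hy2).differentiableAt.differentiableWithinAt)
    (C := 0) (fun y hy => by
      rw [interior_Icc] at hy
      obtain ⟨hy1, hy2⟩ := three_sq_pos hy.1
      rw [deriv_GG hy1 hy2]
      have : 0 ≤ √(3 * y ^ 2 - 1) ^ 3 / (y * (1 + y ^ 2) ^ 2) := by positivity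
      linarith) r ⟨h1, h2⟩ 1 (right_mem_Icc.2 (h1.trans h2)) h2
  have h3 := GG_left (r := 1) le_rfl (by norm_num)
  linarith

theorem h_le3 {r : ℝ} (h1 : 3 ≤ r) :
    √(3 * r ^ 2 - 1) ^ 3 / (r * (1 + r ^ 2) ^ 2) ≤ 0.7 := by
  have hy1 : 9 ≤ r ^ 2 := by
    have : (3 : ℝ) ^ 2 ≤ r ^ 2 := pow_le_pow_left₀ (by norm_num) h1 2
    norm_num at this ⊢
    linarith
  have hr : 0 < r := by linarith
  rw [div_le_iff₀ (by positivity)]
  have h3 : 0 < 3 * r ^ 2 - 1 := by linarith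
  have hx6 : (√(3 * r ^ 2 - 1) ^ 3) ^ 2 = (3 * r ^ 2 - 1) ^ 3 := by
    rw [← pow_mul, mul_comm 3 2, pow_mul, Real.sq_sqrt h3.le]
  refine le_of_sq_le_sq ?_ (by positivity)
  rw [hx6]
  have e1 : (0.7 * (r * (1 + r ^ 2) ^ 2)) ^ 2 = 0.49 * (r ^ 2 * (1 + r ^ 2) ^ 4) := by
    ring
  rw [e1]
  obtain ⟨t, ht0, ht⟩ : ∃ t : ℝ, 0 ≤ t ∧ r ^ 2 = 9 + t := ⟨r ^ 2 - 9, by linarith, by ring⟩
  rw [ht, ← sub_nonneg]
  ring_nf
  positivity

theorem GG_far {r : ℝ} (h1 : 3 ≤ r) : 1.4474 - 0.7 * (r - 3) ≤ GG r := by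
  have h := Convex.mul_sub_le_image_sub_of_le_deriv (convex_Icc (3 : ℝ) r)
    (f := GG) GG_continuous.continuousOn
    (fun y hy => by
      rw [interior_Icc] at hy
      have hy1 : 1 ≤ y := by linarith [hy.1]
      have hy2 : 1 ≤ y ^ 2 := one_le_pow₀ hy1
      exact (hasDerivAt_GG (by linarith) (by linarith)).differentiableAt.differentiableWithinAt)
    (C := -0.7) (fun y hy => by
      rw [interior_Icc] at hy
      have hy1 : 1 ≤ y := by linarith [hy.1]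
      have hy2 : 1 ≤ y ^ 2 := one_le_pow₀ hy1
      rw [deriv_GG (by linarith) (by linarith)]
      have := h_le3 hy.1.le
      linarith) 3 (left_mem_Icc.2 h1) r (right_mem_Icc.2 h1) h1
  have h3 := GG_right (r := 3) (by norm_num)
  linarith

/-- The numeric lemma. -/
theorem gnum {r : ℝ} (h0 : 0 < r) (h1 : 1 ≤ 3 * r ^ 2) (_h5 : r ≤ 5.1) :
    2.8 * min 1 (1.262 - r / 4) + 0.012 ≤ 2 * Real.sqrt (3 * r ^ 2 - 1) / (1 + r ^ 2) + Real.pi -
      Real.arctan (Real.sqrt (3 * r ^ 2 - 1) - r) - Real.arctan (Real.sqrt (3 * r ^ 2 - 1) + r) := by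
  change 2.8 * min 1 (1.262 - r / 4) + 0.012 ≤ GG r
  have h1' : 1 / √3 ≤ r := by
    rw [div_le_iff₀ (by positivity)]
    refine le_of_sq_le_sq ?_ (by positivity)
    rw [mul_pow, Real.sq_sqrt (by norm_num)]
    linarith
  have h6 : min 1 (1.262 - r / 4) ≤ 1 := min_le_left _ _
  have h4 : min 1 (1.262 - r / 4) ≤ 1.262 - r / 4 := min_le_right _ _
  rcases le_total r 1 with h | h
  · have h3 := GG_low h1' h
    linarith
  · rcases le_total r 2.05 with h' | h'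
    · have h3 := GG_left h h'
      linarith
    · rcases le_total r 3 with h'' | h''
      · have h3 := GG_right h'
        linarith
      · have h3 := GG_far h''
        linarith

end Vale.Agent.P321.R3.H614
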