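import Vale.Agent.P321.R3.H175.Good5
import Vale.Agent.P321.R3.H614.FinalG

/-! # Final assembly: `T_q(n) ≤ exp ((log n)^5)` for all large `n`

The induction step `Step5Stmt` is a hypothesis here. -/

namespace Vale.Agent.P321.R3.H614

open Complex Finset Vale.Agent.P321.UB Vale.Agent.P321.R2.H613 Vale.Agent.P321.R3.H175
open scoped unitInterval ENNReal

/-- The explicit quasi-polynomial upper bound, from the induction step. -/
theorem exp_log5_of (h5 : Step5Stmt) : ∀ q : I, (q : ℝ) < 1 → ∃ n₀ : ℕ, ∀ n : ℕ, n₀ ≤ n →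
    T q n ≤ (⌊Real.exp ((Real.log n) ^ 5)⌋₊ : ℕ∞) := by
  refine G.finalG (e := 5) (lam := 10.6) (c := 3 * 10 ^ 10) (V := 10 ^ 16) (w := 10 ^ 5)
    (B := 10 ^ 18) (N := 1000) (β := 5) (by norm_num) (by norm_num) (by norm_num) (by norm_num)
    (by norm_num) (by norm_num) (by norm_num) (by norm_num) (by norm_num) (by norm_num)
    Good5 ?_ ?_ ?_
  · intro x x' i1 _ hi hd r D hr hr1 _ hD
    exact good_base5 hi hd hr hr1 hD
  · intro x x' i1 hl hi heq r κ D hr hr3 hκ hκr hD hn hrl hκl h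
    exact good_step5_of h5 hl hi heq hr hr3 hκ hκr hD hn hrl hκl h
  · rintro x x' i1 r κ D _ _ hD ⟨τ, -, hτ, s, hsre, hsim, hNN⟩
    refine ⟨τ, hτ, s, hsre, hsim, ?_⟩
    refine le_trans (Real.exp_le_exp.2 (neg_le_neg ?_)) hNN
    exact mul_le_of_le_one_right (by linarith) (min_le_left _ _)

end Vale.Agent.P321.R3.H614
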