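import Vale.Agent.P321.UB.Final
import Vale.Agent.P321.R3.H175.Good7
import Vale.Agent.P321.R3.H614.Iterate7

/-! # Final assembly: `T_q(n) ≤ exp ((log n)^6)` for all large `n`

Adapted from `P321/R2/H94/Final6.lean`. -/

namespace Vale.Agent.P321.R3.H614

open Complex Finset Vale.Agent.P321.UB Vale.Agent.P321.R2.H613 Vale.Agent.P321.R3.H175
open scoped unitInterval ENNReal

theorem gap_of_good7 {x x' : List Bool} {i1 : ℕ} (hl : x.length = x'.length)
    (hi : i1 ≤ x.length) (hi1 : 1 ≤ i1) (heq : ∀ τ, ∀ i < i1, sq x τ i = sq x' τ i)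
    {p κ D : ℝ} (hp : 0 < p) (hp1 : p ≤ 1) (hκ : 0 < κ) (hκn : κ ≤ p / (1000 * x.length))
    (hD : 10 ^ 6 ≤ D) (hn : (x.length : ℝ) + 1 ≤ Real.exp (D / 10 ^ 5))
    (hpl : 1 / p ≤ Real.exp (D / 10 ^ 5)) (h : Good7 x x' i1 p κ D) :
    ∃ Φ : List Bool → ℂ, (∀ u, u.length ≤ x.length → ‖Φ u‖ ≤ 1) ∧
      Real.exp (-(2 * D)) ≤ ‖FE p Φ x - FE p Φ x'‖ := by
  obtain ⟨τ, -, hτ, s, hsre, hsim, hNN⟩ := h
  have hNN : Real.exp (-D) ≤ ‖NN x.length i1 (sq x τ) (sq x' τ) s‖ := by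
    refine le_trans (Real.exp_le_exp.2 (neg_le_neg ?_)) hNN
    exact mul_le_of_le_one_right (by linarith) (min_le_left _ _)
  set n := x.length with hndef
  have hn1 : 1 ≤ n := hi1.trans hi
  have hnR : (1 : ℝ) ≤ n := by exact_mod_cast hn1
  have hnpos : (0 : ℝ) < n := by linarith
  set z : ℂ := cexp s with hz
  -- size of `s` and `z - 1`
  have hκn' : κ * n ≤ p / 1000 := by
    have h2 : κ * (1000 * n) ≤ p := by
      rwa [le_div_iff₀ (by positivity)] at hκn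
    linarith
  have hκ1 : κ ≤ 1 / 1000 := by nlinarith
  have hs : ‖s‖ ≤ 5.5 * κ := by
    have h1 := Complex.norm_le_abs_re_add_abs_im s
    rw [hsre, abs_of_pos hκ] at h1
    linarith
  have hs1 : ‖s‖ ≤ 1 := by linarith
  have hz1 : ‖z - 1‖ ≤ 11 * κ := by
    have h1 := Complex.norm_exp_sub_one_le hs1
    linarith
  have hznorm : ‖z‖ ≤ 1.1 := by
    rw [hz, Complex.norm_exp, hsre]
    have h1 := Real.exp_bound_div_one_sub_of_interval (x := κ) hκ.le (by linarith)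
    refine h1.trans ?_
    rw [div_le_iff₀ (by linarith)]
    linarith
  have hpn : ‖(p : ℂ)‖ = p := norm_ofReal_nonneg hp.le
  have hq : ‖(z - 1 + p) / p‖ ≤ 1 + 11 * κ / p := by
    rw [norm_div, hpn, div_le_iff₀ hp]
    calc ‖z - 1 + p‖ ≤ ‖z - 1‖ + ‖(p : ℂ)‖ := norm_add_le _ _
      _ ≤ 11 * κ + p := by rw [hpn]; linarith
      _ = (1 + 11 * κ / p) * p := by field_simp; ring
  have hqn : ‖(z - 1 + p) / p‖ ^ n ≤ 3 := by
    have h1 : (11 * κ / p) * n ≤ 1 := by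
      rw [div_mul_eq_mul_div, div_le_iff₀ hp]
      nlinarith
    calc ‖(z - 1 + p) / p‖ ^ n ≤ (1 + 11 * κ / p) ^ n :=
          pow_le_pow_left₀ (norm_nonneg _) hq n
      _ ≤ (Real.exp (11 * κ / p)) ^ n := by
          refine pow_le_pow_left₀ (by positivity) ?_ n
          have := Real.add_one_le_exp (11 * κ / p)
          linarith
      _ = Real.exp ((11 * κ / p) * n) := by
          rw [← Real.exp_nat_mul]; congr 1; ring
      _ ≤ Real.exp 1 := Real.exp_le_exp.2 h1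
      _ ≤ 3 := by linarith [Real.exp_one_lt_d9]
  -- the two tests
  obtain ⟨Φ0, hΦ0, hF0⟩ := hτ
  have hτ' : IsTest n p 1 τ := ⟨Φ0, hΦ0, hF0⟩
  obtain ⟨Φ1, hΦ1, hF1⟩ := IsTest.sz_near (z := z) hp zero_le_one (by norm_num : (1 : ℝ) ≤ 3)
    hqn hτ'
  set B' : ℝ := 1.1 * (3 * (n * 1 / p)) + 1 with hB'
  have hB'pos : 0 < B' := by positivity
  refine ⟨fun u => ((1 / B' : ℝ) : ℂ) * z * Φ1 u + ((1 / B' : ℝ) : ℂ) * Φ0 u, fun u hu => ?_, ?_⟩
  · have h1 := hΦ1 u hu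
    have h0 := hΦ0 u hu
    have hc : ‖((1 / B' : ℝ) : ℂ)‖ = 1 / B' := norm_ofReal_nonneg (by positivity)
    calc ‖((1 / B' : ℝ) : ℂ) * z * Φ1 u + ((1 / B' : ℝ) : ℂ) * Φ0 u‖
        ≤ ‖((1 / B' : ℝ) : ℂ) * z * Φ1 u‖ + ‖((1 / B' : ℝ) : ℂ) * Φ0 u‖ := norm_add_le _ _
      _ = (1 / B') * (‖z‖ * ‖Φ1 u‖ + ‖Φ0 u‖) := by
          rw [norm_mul, norm_mul, norm_mul, hc]; ring
      _ ≤ (1 / B') * (1.1 * (3 * (n * 1 / p)) + 1) := by
          have hpos : (0 : ℝ) ≤ 1 / B' := by positivity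
          gcongr
      _ = 1 := by rw [← hB']; field_simp
  · have hx' : x'.length ≤ n := by rw [← hl]
    have e1 : FE p (fun u => ((1 / B' : ℝ) : ℂ) * z * Φ1 u + ((1 / B' : ℝ) : ℂ) * Φ0 u) x =
        ((1 / B' : ℝ) : ℂ) * (z * Sz z τ x + τ x) := by
      rw [FE_lin, hF1 x le_rfl, hF0 x le_rfl]; ring
    have e2 : FE p (fun u => ((1 / B' : ℝ) : ℂ) * z * Φ1 u + ((1 / B' : ℝ) : ℂ) * Φ0 u) x' =
        ((1 / B' : ℝ) : ℂ) * (z * Sz z τ x' + τ x') := by
      rw [FE_lin, hF1 x' hx', hF0 x' hx']; ring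
    have f1 : z * Sz z τ x + τ x = seqS z (sq x τ) (n + 1) := by
      have g1 : Sz z τ x = seqS z (sq x τ) n := by
        rw [← sq_full x (Sz z τ)]
        exact sq_Sz x z τ n le_rfl
      change _ = z * seqS z (sq x τ) n + sq x τ n
      rw [g1, ← sq_full x τ]
    have f2 : z * Sz z τ x' + τ x' = seqS z (sq x' τ) (n + 1) := by
      have g1 : Sz z τ x' = seqS z (sq x' τ) n := by
        rw [← sq_full x' (Sz z τ), hl]
        exact sq_Sz x' z τ x'.length le_rfl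
      change _ = z * seqS z (sq x' τ) n + sq x' τ n
      rw [g1]
      congr 1
      rw [hl]
      exact (sq_full x' τ).symm
    have hdiff : FE p (fun u => ((1 / B' : ℝ) : ℂ) * z * Φ1 u + ((1 / B' : ℝ) : ℂ) * Φ0 u) x -
        FE p (fun u => ((1 / B' : ℝ) : ℂ) * z * Φ1 u + ((1 / B' : ℝ) : ℂ) * Φ0 u) x' =
        ((1 / B' : ℝ) : ℂ) * (cexp (s * ((n : ℂ) - i1)) * NN n i1 (sq x τ) (sq x' τ) s) := by
      rw [e1, e2, f1, f2, ← mul_sub, seqS_sub_eq hi s (heq τ)]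
    rw [hdiff, norm_mul, norm_mul, norm_ofReal_nonneg (by positivity : (0 : ℝ) ≤ 1 / B')]
    have hexp : 1 ≤ ‖cexp (s * ((n : ℂ) - i1))‖ := by
      rw [Complex.norm_exp]
      have hre : (s * ((n : ℂ) - i1)).re = κ * ((n : ℝ) - i1) := by
        rw [Complex.mul_re]
        simp [hsre]
      rw [hre]
      have hi' : (i1 : ℝ) ≤ n := by exact_mod_cast hi
      exact Real.one_le_exp (mul_nonneg hκ.le (by linarith))
    -- `B' ≤ e^D`
    set ℓ : ℝ := D / 10 ^ 5 with hℓ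
    have hℓ10 : 10 ≤ ℓ := by rw [hℓ, le_div_iff₀ (by norm_num)]; linarith
    have hDℓ : D = 10 ^ 5 * ℓ := by rw [hℓ]; ring
    have hB'le : B' ≤ Real.exp D := by
      have g1 : (n : ℝ) * 1 / p ≤ Real.exp (2 * ℓ) := by
        calc (n : ℝ) * 1 / p = n * (1 / p) := by ring
          _ ≤ Real.exp ℓ * Real.exp ℓ := by
            apply mul_le_mul (by linarith) hpl (by positivity) (Real.exp_pos _).le
          _ = Real.exp (2 * ℓ) := by rw [← Real.exp_add]; congr 1; ring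
      have g2 : (1 : ℝ) ≤ Real.exp (2 * ℓ) := Real.one_le_exp (by linarith)
      have g3 : (4.3 : ℝ) ≤ Real.exp ℓ := by
        have := Real.add_one_le_exp ℓ; linarith
      calc B' ≤ 4.3 * Real.exp (2 * ℓ) := by rw [hB']; linarith
        _ ≤ Real.exp ℓ * Real.exp (2 * ℓ) :=
          mul_le_mul_of_nonneg_right g3 (Real.exp_pos _).le
        _ = Real.exp (3 * ℓ) := by rw [← Real.exp_add]; congr 1; ring
        _ ≤ Real.exp D := Real.exp_le_exp.2 (by rw [hDℓ]; linarith)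
    have h10 : Real.exp (-(2 * D)) * B' ≤ Real.exp (-D) := by
      have g1 : Real.exp (-D) = Real.exp (-(2 * D)) * Real.exp D := by
        rw [← Real.exp_add]; congr 1; ring
      rw [g1]
      exact mul_le_mul_of_nonneg_left hB'le (Real.exp_pos _).le
    calc Real.exp (-(2 * D)) ≤ (1 / B') * Real.exp (-D) := by
          rw [one_div, ← div_eq_inv_mul, le_div_iff₀ hB'pos]
          exact h10
      _ ≤ (1 / B') * (‖cexp (s * ((n : ℂ) - i1))‖ *
            ‖NN n i1 (sq x τ) (sq x' τ) s‖) := by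
          refine mul_le_mul_of_nonneg_left ?_ (by positivity)
          calc Real.exp (-D) = 1 * Real.exp (-D) := (one_mul _).symm
            _ ≤ _ := mul_le_mul hexp hNN (Real.exp_pos _).le (norm_nonneg _)

/-- Final numerics. -/
theorem numerics6 {n : ℕ} (hn : 2 ≤ Real.log n) :
    (⌈(16 / (Real.exp (-(2 * ((Real.log n) ^ 6 / 100)))) ^ 2) * ((n : ℝ) + 2)⌉₊ : ℕ) ≤
      ⌊Real.exp ((Real.log n) ^ 6)⌋₊ := by
  set t : ℝ := Real.log n with ht
  have hn0 : n ≠ 0 := by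
    rintro rfl
    simp at ht
    linarith
  have hn1 : (1 : ℝ) ≤ n := by
    exact_mod_cast Nat.one_le_iff_ne_zero.mpr hn0
  have hnpos : (0 : ℝ) < n := by linarith
  have hnexp : (n : ℝ) = Real.exp t := (Real.exp_log hnpos).symm
  set y : ℝ := t ^ 6 with hy
  have h7 : (2 : ℝ) ^ 5 ≤ t ^ 5 := pow_le_pow_left₀ (by norm_num) hn 5
  have hyt : 32 * t ≤ y := by
    have h8 : y = t ^ 5 * t := by rw [hy]; ring
    rw [h8]
    have : (2 : ℝ) ^ 5 * t ≤ t ^ 5 * t := mul_le_mul_of_nonneg_right h7 (by linarith)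
    linarith
  have h2 : 16 / (Real.exp (-(2 * (y / 100)))) ^ 2 = 16 * Real.exp (y / 25) := by
    rw [← Real.exp_nat_mul, div_eq_mul_inv, ← Real.exp_neg]
    congr 2; push_cast; ring
  rw [h2]
  have hE : (1 : ℝ) ≤ Real.exp (y / 25) := Real.one_le_exp (by positivity)
  have h1 : 16 * Real.exp (y / 25) * ((n : ℝ) + 2) + 1 ≤ Real.exp y := by
    have h3 : (n : ℝ) + 2 ≤ 3 * n := by linarith
    have h4 : 16 * Real.exp (y / 25) * ((n : ℝ) + 2) + 1 ≤ 49 * Real.exp (y / 25) * n := by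
      have h5 : 16 * Real.exp (y / 25) * ((n : ℝ) + 2) ≤ 16 * Real.exp (y / 25) * (3 * n) :=
        mul_le_mul_of_nonneg_left h3 (by positivity)
      have h6 : (1 : ℝ) ≤ Real.exp (y / 25) * n := by
        calc (1 : ℝ) = 1 * 1 := (mul_one 1).symm
          _ ≤ Real.exp (y / 25) * n := mul_le_mul hE hn1 zero_le_one (Real.exp_pos _).le
      linarith
    have h49 : (49 : ℝ) ≤ Real.exp 6 := by
      have h8 : Real.exp 6 = (Real.exp 1) ^ 6 := by
        rw [← Real.exp_nat_mul]; norm_num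
      rw [h8]
      have h9 : (2 : ℝ) ^ 6 ≤ (Real.exp 1) ^ 6 :=
        pow_le_pow_left₀ (by norm_num) (by linarith [Real.exp_one_gt_d9]) 6
      refine le_trans ?_ h9
      norm_num
    refine h4.trans ?_
    rw [hnexp]
    calc 49 * Real.exp (y / 25) * Real.exp t ≤ Real.exp 6 * Real.exp (y / 25) * Real.exp t := by
          gcongr
      _ = Real.exp (6 + y / 25 + t) := by rw [← Real.exp_add, ← Real.exp_add]
      _ ≤ Real.exp y := Real.exp_le_exp.2 (by linarith)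
  apply Nat.le_floor
  have h3 := (Nat.ceil_lt_add_one
    (show 0 ≤ 16 * Real.exp (y / 25) * ((n : ℝ) + 2) by positivity)).le
  exact h3.trans h1

/-- The explicit quasi-polynomial upper bound. -/
theorem exp_log6 : ∀ q : I, (q : ℝ) < 1 → ∃ n₀ : ℕ, ∀ n : ℕ, n₀ ≤ n →
    T q n ≤ (⌊Real.exp ((Real.log n) ^ 6)⌋₊ : ℕ∞) := by
  intro q hq
  have hp : 0 < 1 - (q : ℝ) := by linarith
  have hp1 : 1 - (q : ℝ) ≤ 1 := by linarith [q.2.1]
  obtain ⟨n₁, hn₁⟩ := iterate7 (1 - (q : ℝ)) hp hp1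
  refine ⟨n₁ + ⌈Real.exp 2⌉₊ + 3, fun n hn => ?_⟩
  have hn3 : 3 ≤ n := by omega
  have hn3R : (3 : ℝ) ≤ n := by exact_mod_cast hn3
  have hlog : 2 ≤ Real.log n := by
    rw [Real.le_log_iff_exp_le (by positivity)]
    have h1 : (⌈Real.exp 2⌉₊ : ℝ) ≤ n := by
      exact_mod_cast (by omega : ⌈Real.exp 2⌉₊ ≤ n)
    exact (Nat.le_ceil _).trans h1
  have key : T q n ≤ (⌈(16 / (Real.exp (-(2 * ((Real.log n) ^ 6 / 100)))) ^ 2) *
      ((n : ℝ) + 2)⌉₊ : ℕ) := by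
    refine T_le_of_gap q n (Real.exp_pos _) (Real.exp_le_one_iff.2 ?_) ?_
    · have : 0 ≤ (Real.log n) ^ 6 := by positivity
      linarith
    intro x x' hxx
    have hlx : (List.ofFn x).length = n := List.length_ofFn
    have hlx' : (List.ofFn x').length = n := List.length_ofFn
    have hll : (List.ofFn x).length = (List.ofFn x').length := by rw [hlx, hlx']
    have hne : List.ofFn x ≠ List.ofFn x' := fun h => hxx (List.ofFn_injective h)
    obtain ⟨i1, h1, h2, h3, h4⟩ := exists_first_diff hll hne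
    obtain ⟨κ, D, hκ, hκn, hD, hnl, hpl, hlD, hG⟩ :=
      hn₁ n (by omega) (fun r κ D => Good7 (List.ofFn x) (List.ofFn x') i1 r κ D)
        (fun r D hr hr1 _ hl2 => good_base7 h2 h4 hr hr1 hl2)
        (fun r κ D hr hr3 hκ hκr hD hnl hrl hκl hG =>
          good_step7 hll h2 h3 hr hr3 hκ hκr hD (by rw [hlx]; exact hnl) hrl hκl hG)
    obtain ⟨Φ, hΦ, hgap⟩ := gap_of_good7 hll h2 h1 h3 hp hp1 hκ (by rw [hlx]; exact hκn) hD
      (by rw [hlx]; exact hnl) hpl hG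
    refine ⟨Φ, fun u hu => hΦ u (by rw [hlx]; exact hu), ?_⟩
    exact le_trans (Real.exp_le_exp.2 (by linarith)) hgap
  refine key.trans ?_
  exact_mod_cast numerics6 hlog

end Vale.Agent.P321.R3.H614
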